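import Vale.Agent.P181.TL.Defs

set_option autoImplicit false

/-!
# P181, TB: two long rows without a dominating first row, `b ≥ C a`: the literals

Letters `ι` carry the tail, outside letters `O₁`, `O₂` do not. A product of `2 × 2` minors in the
rows `0, 1` (called brackets), of row-zero variables and of a tail polynomial in the `3 × 3` minors of
the columns `j, u j, v j` is a highest weight polynomial of weight `(r + d, r, tau)`. At the point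
`O₁ = (1, 0; 0)`, `O₂ = (0, 1; 0)` only the permutations preserving `ι`, `O₁`, `O₂` survive.
-/

open MvPolynomial

namespace Vale.Agent.P181.TB

open Vale.Agent.P181.T4 (HW)
open Vale.Agent.P181.H280 (plethMult)
open Vale.Agent.P181.SZ
open Vale.Agent.P181.TL (KK dn2)

open scoped Classical in
/-- The bracket design for the content `c`: `A j x` brackets of the letter `j` with `x ∈ O₁` (in
total `al j`, the label), `B j y` brackets with `y ∈ O₂`, `M x y` outside brackets, `g x` cells of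
row zero; the `3 × 3` minors of the letter `j` use the partners `u j`, `v j`; `f₁ j`, `f₂ j` are
frame letters. -/
structure Dsn {ι O₁ O₂ : Type} [Fintype ι] [Fintype O₁] [Fintype O₂] (a d : ℕ) (al c : ι → ℕ)
    (u : ι → O₁) (v : ι → O₂) (f₁ : ι → O₁) (f₂ : ι → O₂) (A : ι → O₁ → ℕ) (B : ι → O₂ → ℕ)
    (M : O₁ → O₂ → ℕ) (g : O₁ → ℕ) : Prop where
  pos : ∀ j, 1 ≤ c j
  rowA : ∀ j, ∑ x, A j x = al j
  rowB : ∀ j, al j + ∑ y, B j y + c j = a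
  col1 : ∀ x, ∑ j, A j x + ∑ y, M x y + ∑ j, (if u j = x then c j else 0) + g x = a
  col2 : ∀ y, ∑ j, B j y + ∑ x, M x y + ∑ j, (if v j = y then c j else 0) = a
  sumg : ∑ x, g x = d
  fr1 : ∀ j, 1 ≤ A j (f₁ j)
  fr2 : ∀ j, 1 ≤ B j (f₂ j)
  fr3 : ∀ j, 1 ≤ M (f₁ j) (f₂ j)
  fr4 : ∀ j j', u j' ≠ f₁ j
  fr5 : ∀ j j', v j' ≠ f₂ j
  inju : Function.Injective u
  injv : Function.Injective v
  up : ∀ s : O₁ ⊕ O₂ → Bool, (Finset.univ.filter fun x => s x = true).card = Fintype.card O₁ →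
    (∀ x y, M x y ≠ 0 → s (Sum.inl x) ≠ s (Sum.inr y)) →
    (∀ x, s (Sum.inl x) = true) ∧ ∀ y, s (Sum.inr y) = false

/-- **(TB1)** the lift (twin of `TL.LiftB`, proof `TL/H248/T4.lean`). -/
def LiftTB : Prop := ∀ (k a d r : ℕ) (ι O₁ O₂ : Type) [Fintype ι] [Fintype O₁] [Fintype O₂]
  (al : ι → ℕ) (u : ι → O₁) (v : ι → O₂) (f₁ : ι → O₁) (f₂ : ι → O₂) (tau : Fin k → ℕ)
  (KS : Finset (ι → ℕ)),
  (∀ c ∈ KS, ∃ A B M g, Dsn a d al c u v f₁ f₂ A B M g) →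
  (∀ c ∈ KS, ∑ j, c j = ∑ i, tau i) →
  (∀ c ∈ KS, ∀ c' ∈ KS, ∀ j j', al j = al j' → j ≠ j' → c j ≠ c' j') →
  2 * r + d + ∑ i, tau i = a * (Fintype.card ι + Fintype.card O₁ + Fintype.card O₂) →
  ∑ c ∈ KS, Module.finrank ℂ (KK k ι c tau) ≤
    plethMult (Fintype.card ι + Fintype.card O₁ + Fintype.card O₂) a (k + 2)
      (Fin.cons (r + d) (Fin.cons r tau))

/-- **(TB2)** matrices of natural numbers with given marginals. -/
def Marg : Prop := ∀ (α β : Type) [Fintype α] [Fintype β] (r : α → ℕ) (s : β → ℕ),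
  ∑ x, r x = ∑ y, s y →
  ∃ m : α → β → ℕ, (∀ x, ∑ y, m x y = r x) ∧ ∀ y, ∑ x, m x y = s y

/-- **(TB3)** the designs exist (pure counting). `n = q a` letters, `K + ε` and `K` outside letters
(`ε ∈ {1, 2}`), outside brackets along the path `u₀ v₀ u₁ v₁ .. u_K` with multiplicities `F` or
`F + 1`, labels `B₀ + 2 (q (i / m) + r) + {0, 1}`, partners the first `n` path letters, frames the
next `n / 3`, `g = 1` on the first `d` letters of `O₁`. -/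
def DesTB : Prop := ∀ (a b q m t d Mx : ℕ), 2 ≤ q → 100 * q ≤ a → 8 * q ≤ m → 1 ≤ Mx → d < a →
  2 ∣ a * b + t + d → t ≤ q * a * Mx → 4 * q * a ≤ b → 16 * Mx * b ≤ q * a ^ 2 →
  ∃ (N₁ N₂ : ℕ) (al : Fin a × Fin q → ℕ) (u f₁ : Fin a × Fin q → Fin N₁)
    (v f₂ : Fin a × Fin q → Fin N₂), a * q + N₁ + N₂ = b ∧
    (∀ j j' : Fin a × Fin q, al j = al j' → (j.1 : ℕ) / m = (j'.1 : ℕ) / m ∧ j.2 = j'.2) ∧
    ∀ c : Fin a × Fin q → ℕ, (∀ j, 1 ≤ c j ∧ c j ≤ Mx) → ∑ j, c j = t →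
      ∃ A B M g, Dsn a d al c u v f₁ f₂ A B M g

/-- **(TB3')** `TL.KeyB` with positive contents. -/
def KeyPos : Prop := ∀ (a q m X t : ℕ), 0 < a → 2 ≤ q → 1 ≤ m → 1 ≤ X → 2 * m * q * X ≤ t / a / q →
  ∃ KS : Finset (Fin a × Fin q → ℕ),
    (∀ c ∈ KS, ∀ i : Fin a, ∑ r, c (i, r) = t / a + if (i : ℕ) < t % a then 1 else 0) ∧
    (∀ c ∈ KS, ∀ j, 1 ≤ c j ∧ c j ≤ 2 * (t / a / q) + q) ∧
    (∀ c ∈ KS, ∀ c' ∈ KS, ∀ j j' : Fin a × Fin q, (j.1 : ℕ) / m = (j'.1 : ℕ) / m → j.2 = j'.2 →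
      j ≠ j' → c j ≠ c' j') ∧
    X ^ ((q - 1) * a) ≤ KS.card

/-- **(TB4)** lower bound for `λ₁ - λ₂ < a`, from TL's `RefB`, `KeyPos` and `LiftTB`, `DesTB`. -/
def LowTB : Prop := ∀ (a b k q m X : ℕ) (lam : Fin (k + 2) → ℕ) (f : Fin a → ℕ),
  ∑ i, lam i = a * b → 2 ≤ q → 100 * q ≤ a → 8 * q ≤ m → 1 ≤ X →
  2 * m * q * X ≤ dn2 lam / a / q →
  (∀ i : Fin a, f i = dn2 lam / a + if (i : ℕ) < dn2 lam % a then 1 else 0) →
  lam 1 ≤ lam 0 → lam 0 < lam 1 + a → 4 * q * a ≤ b →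
  16 * (2 * (dn2 lam / a / q) + q) * b ≤ q * a ^ 2 →
  X ^ ((q - 1) * a) * Module.finrank ℂ (KK k (Fin a) f fun i => lam i.succ.succ) ≤
    plethMult b a (k + 2) lam

/-- **(TB5)** removing letters with one row: `plethMult` is monotone under `(b, λ) → (b + 1, λ + (a))`. -/
def MonoTB : Prop := ∀ (a b k : ℕ) (lam mu : Fin (k + 1) → ℕ), mu 0 = lam 0 + a →
  (∀ i : Fin k, mu i.succ = lam i.succ) →
  plethMult b a (k + 1) lam ≤ plethMult (b + 1) a (k + 1) mu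

/-- **(TB6)** the theorem: no condition on the first row. -/
def TwoBal : Prop := ∃ C : ℝ, 0 < C ∧ ∀ (a b k : ℕ) (lam : Fin (k + 2) → ℕ), Antitone lam →
  ∑ i, lam i = a * b → C * a ≤ b → C * (a : ℝ) ^ 2 ≤ lam 1 → C * b * dn2 lam ≤ (a : ℝ) ^ 3 →
  plethMult a b (k + 2) lam ≤ plethMult b a (k + 2) lam

end Vale.Agent.P181.TB
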